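import Vale.Agent.P039.Bd3.B1

namespace Vale.Agent.Results.P039.Composite

open Vale.Agent.P039

/-- Every composite graph is Hamiltonian. Here the class of composite graphs is the smallest class
that contains all cubic bipartite planar graphs whose black vertices can be split into two parts
such that deleting either part leaves a connected graph, and contains `G` whenever exactly three
edges of `G` leave a set `X` of vertices, the graph obtained by contracting the complement of `X`
is composite, and the graph obtained by contracting `X` is a plane cubic graph in which at least
two of the three faces at the contracted vertex are active. -/
theorem result {V : Type} [Fintype V] [DecidableEq V] (G : SimpleGraph V) (h : Composite G) :
    G.IsHamiltonian :=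
  ham_of_composite G h

end Vale.Agent.Results.P039.Composite
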