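import Vale.Agent.P039.Bd3.B1

namespace Vale.Agent.Results.P039.Splitting

open Vale.Agent.P039

/-- Let `G` be a cubic bipartite planar graph; the vertices `v` with `c v = true` are called black.
Suppose that the black vertices can be split into two parts in such a way that `G` stays connected
when the black vertices of either part are deleted. Then `G` is Hamiltonian. -/
theorem result {V : Type*} [Fintype V] [DecidableEq V] (G : SimpleGraph V)
    (hcub : ∀ v, (G.neighborSet v).ncard = 3) (hpl : IsPlane G)
    (c : V → Bool) (hc : ∀ u v, G.Adj u v → c u ≠ c v) (S : Set V)
    (h1 : (G.induce {v | c v = true → v ∈ S}).Connected)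
    (h2 : (G.induce {v | c v = true → v ∉ S}).Connected) : G.IsHamiltonian :=
  Sk.ham_of_splitting G hcub hpl c hc S h1 h2

end Vale.Agent.Results.P039.Splitting
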